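import Vale.Agent.P073Y.Ac.Main
import Vale.Agent.P073Y.Gc.Fix
import Vale.Agent.P073Y.Zn.All
import Vale.Agent.P073Y.Nr.Near2
import Vale.Agent.P073Y.Ms.All
import Vale.Agent.P073Y.An.TR0

/-!
# The approximation theorem for exponents between two and three
-/

namespace P073.Ac

theorem pla0 {p : ℝ} (h2 : 2 < p) (h3 : p < 3) : An.PLA0 p :=
  have h1 : 1 ≤ p := by linarith
  pla0_of h1 (Gc.fix h1 h3) (Zn.batch h1 h3) (Nr.near2 h1) M2.mesh2
    fun h hV b => Gc.osc_of_mon h2 h hV b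

theorem ballEvans {p : ℝ} (h2 : 2 < p) (h3 : p < 3) : Vale.Agent.P073Z.Fin.BallEvans p :=
  An.ballEvans_of_PLA0 (by linarith) (pla0 h2 h3)

end P073.Ac
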