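import Vale.Agent.P073Y.Ac.Two2
import Vale.Agent.P073Y.Gc.Fix2

/-!
# The approximation theorem for all exponents below three
-/

namespace P073.Ac

theorem ballEvans_two : Vale.Agent.P073Z.Fin.BallEvans 2 :=
  ballEvans_two_of (Gc.fix2 one_le_two (by norm_num))

theorem ballEvans_lt3 {p : ℝ} (h1 : 1 ≤ p) (h3 : p < 3) : Vale.Agent.P073Z.Fin.BallEvans p :=
  ballEvans_lt3_of (Gc.fix2 one_le_two (by norm_num)) h1 h3

end P073.Ac
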