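import Vale.Agent.P073Y.Ac.Side
import Vale.Agent.P073Y.Gc.FixSk
import Vale.Agent.P073Y.Ks.Ksel2
import Vale.Agent.P073Y.An.Max
import Vale.Agent.P073Z.ACC.Fin3
import Vale.Agent.P073Z.ACC.Tool
import Vale.Agent.P073Z.GenBV

/-!
# The choice of the parameters
-/

open Set Metric Topology Filter MeasureTheory
open scoped ENNReal NNReal

namespace P073.Ac

open ACC (ev_mul_le ev_small)
open M2 Zn Gc Nr
open _root_.P073.Top

/-- the zone of a type -/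
noncomputable def tyz {Ω : Set E3} {f : E3 → E3} (c : Cho) (T : Ty) (K : Set E3) (r : ℝ)
    (hT : T.r ≤ 2) (hK : IsCompact K) (hr : 0 < r) (h : thickening r K ⊆ Ω)
    (h0 : volume (f '' K) = 0) : TyZ Ω f where
  K := K
  G := thickening r K
  Bm := c.Bm T
  N := c.N T.b
  t := c.t T.b
  θ := c.θ T.b
  ϑ := c.t T.b
  L := c.L T.b
  cpt := hK
  opn := isOpen_thickening
  sub := self_subset_thickening hr K
  subΩ := h
  null := h0
  N_pos := c.N_pos _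
  t_pos := c.t_pos _
  t_le := (c.t_le _).trans ((c.θ_le _).trans (by norm_num))
  θ_pos := (c.t_pos _).trans_le (c.t_le _)
  θ_le := c.θ_le _
  ϑ_pos := c.t_pos _
  ϑ_le := c.t_le _
  cond := c.cond T hT

theorem arith {E Γ C L G B δ₁ δ₂ δ₃ θ τ V : ℝ≥0∞} (h1 : C * (L + 1) * δ₁ ≤ E)
    (h2 : (Γ + C * (G * L)) * δ₂ ≤ E) (h3 : C * B * δ₃ ≤ E) (h4 : C * B * V * θ ≤ E)
    (h5 : C * V * τ ≤ E) :
    E + Γ * δ₂ + C * (L * δ₁ + G * (L * δ₂) + B * (δ₃ + θ * V) + τ * V + δ₁) + E ≤ 7 * E := by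
  calc _ = E + C * (L + 1) * δ₁ + (Γ + C * (G * L)) * δ₂ + C * B * δ₃ + C * B * V * θ +
        C * V * τ + E := by ring
    _ ≤ E + E + E + E + E + E + E := by gcongr
    _ = _ := by ring

theorem pla0_of {p : ℝ} (h1 : 1 ≤ p) (hX : FIX p) (hB : BATCH p) (hN : NEAR2 p) (hM : MESH2)
    (ho : ∀ {Ω V : Set E3} {f : E3 → E3} {F : E3 → An.M3}, An.Mon Ω f F → V ⊆ Ω →
      ∀ b, Osc p f F V b) : An.PLA0 p := by
  intro Ω Λ f f' F₀ ε hΩ hΛ cΩ cΛ bΩ bΛ hε hf hF₀ hi₀ hw₀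
  obtain ⟨F, hF, -, hFe, hFi, hi, hw⟩ := ACC.exists_borel hΩ bΩ h1 hF₀ hi₀ hw₀
  have hiΩ : ∫⁻ x in Ω, ‖F x‖ₑ ^ p < ⊤ := (setLIntegral_le_lintegral _ _).trans_lt hi
  have hli : LocallyIntegrableOn F Ω volume := hFi.locallyIntegrable.locallyIntegrableOn Ω
  have hV : volume Ω ≠ ⊤ := bΩ.measure_lt_top.ne
  have mF : Measurable fun x => ‖F x‖ₑ ^ p := hF.enorm.pow_const p
  have hu : ∫⁻ x in Ω, (1 + ‖F x‖ₑ ^ p) ≠ ⊤ := by
    rw [lintegral_add_left measurable_const, setLIntegral_const, one_mul]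
    exact ENNReal.add_ne_top.2 ⟨hV, hiΩ.ne⟩
  obtain ⟨E, hE⟩ : ∃ E, E = ENNReal.ofReal (ε / 7) := ⟨_, rfl⟩
  have hE0 : E ≠ 0 := by rw [hE]; exact (ENNReal.ofReal_pos.2 (by positivity)).ne'
  obtain ⟨M₀, Mt, S₀, Sl, hM₀, hS₀, hSl, hM⟩ := hM
  obtain ⟨K₂, CR, Cf, hX⟩ := hX
  obtain ⟨c₀, Cz, CM, Cu, Ct, κ, hc₀, hκ, hB⟩ := hB
  obtain ⟨ε₁, hε₁, b0⟩ := exists_small (X := volume Ω + 1) (by finiteness) hE0
  obtain ⟨c, hN⟩ := hN K₂ M₀ STR.kap c₀ Cz CM CR Mt Sl ε₁ hM₀ STR.kap_pos hc₀ hε₁ hSl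
  obtain ⟨δ₁, hδ₁, b1⟩ := exists_small (X := Cf M₀ (Cu M₀) * (4000000 * M₀ + 1))
    (by finiteness) hE0
  obtain ⟨n, T, K, K₃, b, r₁, hr₁, k1, k2, k3, k4, k5, k6, hb, k7, k8, -, k9⟩ :=
    ksel2 c.τ hΩ bΩ hf.cont hw h1 hF.aestronglyMeasurable hiΩ hδ₁ c.τ_pos
  have hb' : (1:ℝ) ≤ b := by exact_mod_cast hb
  obtain ⟨τ₀, D, hτ₀, hD, hX⟩ := hX hM₀ b hb'
  have hΓ : ∑ j, (c.Γ (T j) : ℝ≥0∞) ≠ ⊤ := ENNReal.sum_ne_top.2 fun _ _ => ENNReal.coe_ne_top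
  have hCt : ∑ j, (Ct M₀ (c.θ (T j).b) (c.N (T j).b) (c.t (T j).b) (c.L (T j).b) : ℝ≥0∞) ≠ ⊤ :=
    ENNReal.sum_ne_top.2 fun _ _ => ENNReal.coe_ne_top
  obtain ⟨δ₂, hδ₂, b2⟩ := exists_small (X := ∑ j, (c.Γ (T j) : ℝ≥0∞) + Cf M₀ (Cu M₀) *
    ((1 + ∑ j, (c.Γ (T j) : ℝ≥0∞)) * (1 + ∑ j, (Ct M₀ (c.θ (T j).b) (c.N (T j).b) (c.t (T j).b)
      (c.L (T j).b) : ℝ≥0∞)) * (4000000 * M₀))) (by finiteness) hE0
  have cK : IsCompact (⋃ j, K j) := isCompact_iUnion fun j => (k1 j).1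
  have cA : IsCompact (K₃ ∪ ⋃ j, K j) := k4.union cK
  obtain ⟨r₂, ⟨⟨t1, t2⟩, t3⟩, hr₂⟩ := ((((ev_small cK.isClosed hu two_pos hδ₂.ne').and
    (eventually_all.2 fun j => ev_small (k1 j).1.isClosed hu two_pos hδ₂.ne')).and
    (ev_mul_le 10 hr₁)).and self_mem_nhdsWithin).exists
  replace hr₂ : 0 < r₂ := hr₂
  obtain ⟨Z, hZ⟩ : ∃ Z, Z = cthickening (2 * r₂) (K₃ ∪ ⋃ j, K j) := ⟨_, rfl⟩
  have cZ : IsCompact Z := hZ ▸ cA.cthickening
  have hZΩ : Z ⊆ Ω := fun x hx => by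
    obtain ⟨y, hy, h⟩ := near_cth cA (by linarith) (hZ ▸ hx)
    rcases hy with hy | hy
    · exact k5 (mem_cthickening_of_dist_le x y _ _ hy (by linarith))
    · obtain ⟨j, hj⟩ := mem_iUnion.1 hy
      exact (k1 j).2.1 (mem_cthickening_of_dist_le x y _ _ hj (by linarith))
  have z1 : cthickening (2 * r₂) K₃ ⊆ Z := hZ ▸ cthickening_subset_of_subset _ subset_union_left
  have z2 : cthickening (2 * r₂) (⋃ j, K j) ⊆ Z :=
    hZ ▸ cthickening_subset_of_subset _ subset_union_right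
  have z3 : ∀ j, thickening (2 * r₂) (K j) ⊆ Z := fun j => (thickening_subset_cthickening _ _).trans
    ((cthickening_subset_of_subset _ (subset_iUnion K j)).trans z2)
  have z4 : ∀ j, thickening r₂ (K j) ⊆ Z := fun j => (thickening_mono (by linarith) _).trans (z3 j)
  have z5 : ∀ j, K j ⊆ Z := fun j => (self_subset_thickening hr₂ _).trans (z4 j)
  have z6 : cthickening r₂ K₃ ⊆ Z := (cthickening_mono (by linarith) _).trans z1
  have z7 : thickening r₂ K₃ ⊆ Z := (thickening_subset_cthickening _ _).trans z6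
  have z8 : K₃ ⊆ thickening r₂ K₃ := self_subset_thickening hr₂ _
  let Y : Fin n → TyZ Ω f := fun j =>
    tyz c (T j) (K j) r₂ (k3 j).1 (k1 j).1 hr₂ ((z4 j).trans hZΩ) (k3 j).2
  obtain ⟨l, v, Tg, B, s₁, s₀, hs₁, hs₀, hT, hB⟩ := hB (ε := ε / 4) Y hΩ hΛ bΛ hf (by positivity)
    cZ hZΩ z5 fun j j' h => (disj_cth (k1 j).1 (k1 j').1 hr₂.le (by linarith) (k2 j j' h)).mono
      (thickening_subset_cthickening _ _) (thickening_subset_cthickening _ _)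
  obtain ⟨oN, hoN, hN⟩ := hN (Λ := Λ) T Y l Tg r₁ hΩ hf.cont hF hli hw hr₁ fun j =>
    ⟨(k3 j).1, rfl, rfl, rfl, rfl, rfl, (k1 j).2.1, (k1 j).2.2, (hT j).1, ⟨_, (hT j).2.1⟩,
      (hT j).2.2⟩
  obtain ⟨r, hr, r1, r2⟩ : ∃ r : ℝ, 0 < r ∧ 6 * r ≤ s₁ ∧ 6 * r ≤ r₂ :=
    ⟨min s₁ r₂ / 6, by positivity, by linarith [min_le_left s₁ r₂], by linarith [min_le_right s₁ r₂]⟩
  obtain ⟨e, he, k₁, hN⟩ := hN r hr
  have hbp : ENNReal.ofReal (b + 1) ^ p ≠ ⊤ :=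
    ENNReal.rpow_ne_top_of_nonneg (by linarith) ENNReal.ofReal_ne_top
  obtain ⟨θ, ⟨b4, θ1⟩, hθ⟩ := (((ev_ofReal (X := Cf M₀ (Cu M₀) * ENNReal.ofReal (b + 1) ^ p *
    volume Ω) (by finiteness) hE0).and (ev_mul_le 1 one_pos)).and self_mem_nhdsWithin).exists
  replace hθ : 0 < θ := hθ
  obtain ⟨τ, ⟨b5, τ1⟩, hτ⟩ := (((ev_ofReal (X := Cf M₀ (Cu M₀) * volume Ω) (by finiteness) hE0).and
    (ev_mul_le 1 hτ₀)).and self_mem_nhdsWithin).exists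
  replace hτ : 0 < τ := hτ
  obtain ⟨δ₃, hδ₃, b3⟩ := exists_small (X := Cf M₀ (Cu M₀) * ENNReal.ofReal (b + 1) ^ p)
    (by finiteness) hE0
  have hκ' := hκ b θ hb' hθ
  obtain ⟨N, N1, N2, N3⟩ : ∃ N : ℝ, D ≤ N ∧ D ≤ κ b θ * N ∧ 1 ≤ θ * N := by
    have a1 : 0 < D / κ b θ := by positivity
    have a2 : 0 < 1 / θ := by positivity
    refine ⟨D + D / κ b θ + 1 / θ, by linarith, (div_le_iff₀' hκ').1 (by linarith),
      (div_le_iff₀' hθ).1 (by linarith)⟩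
  have hVΩ := z7.trans hZΩ
  obtain ⟨ρ₁, hρ₁, hS⟩ := sel (solid_of h1
    (ho (An.mon.2.1 hΩ hΛ h1 hf hF.aestronglyMeasurable hiΩ hw) hVΩ b) hF
    ((lintegral_mono_set hVΩ).trans_lt hiΩ) k4 isOpen_thickening z8 k7
    (k8.mono subset_union_left)) k4 isOpen_thickening z8 (hD.trans N1) hτ hδ₃
  obtain ⟨d₁, hd₁, hfar⟩ := sep_img hf cK (k4.cthickening (r := r₂))
    (iUnion_subset fun j => (z5 j).trans hZΩ) (z6.trans hZΩ) (disjoint_left.2 fun x hx hx' => by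
      obtain ⟨j, hj⟩ := mem_iUnion.1 hx
      obtain ⟨y, hy, h⟩ := near_cth k4 hr₂.le hx'
      linarith [k6 j y hy x hj, dist_comm x y])
  obtain ⟨k, ⟨⟨⟨⟨a1, a2⟩, a3⟩, a4⟩, a5⟩, a6⟩ := ((((((ev_pow 1 hρ₁).and (ev_pow N hs₀)).and
    (ev_pow D (show 0 < ε / 4 by positivity))).and (ev_pow D hoN)).and (ev_pow D hd₁)).and
    (ev_pow 22 hr₂)).exists
  have hρ : (0:ℝ) < 2⁻¹ ^ k := by positivity
  obtain ⟨Φ₃, hΦ₃, hS⟩ := hS (2⁻¹ ^ k) 1 hρ (by linarith) (pow_le_one₀ (by norm_num) (by norm_num))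
  obtain ⟨o, O, σ₀, ho, hO, hlf, hdj, hB⟩ := hB (N * 2⁻¹ ^ k) b θ e
    (mul_pos (by linarith) hρ) a2 hb' hθ (by linarith) he
  obtain ⟨nn, n₀, hn₀, hnn⟩ := exists_steps hlf k4 (z8.trans hVΩ) (fun i => (hO i).2.2) k
  obtain ⟨δ, ς₀, g1, g2, g3, g4, g5, g6, g7⟩ := exists_gauges hΩ hΛ hf ho hρ hlf
    (a := fun i => 2 * 2⁻¹ ^ nn i) fun i => by positivity
  obtain ⟨ς, η₀, hη₀, v1, v2, v3, v4, v5⟩ := exists_vs g4 g5 (V := thickening r₂ K₃) cZ hZΩ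
    (ρ := 2⁻¹ ^ k) fun x hx => ((closedBall_subset_closedBall a6).trans
      (closedBall_subset_cthickening (thickening_subset_cthickening _ _ hx) r₂)).trans
      ((cthickening_cthickening_subset hr₂.le hr₂.le _).trans (two_mul r₂ ▸ z1))
  obtain ⟨μ, hμ, hμ'⟩ := cZ.exists_forall_le' g4.continuous.continuousOn
    fun x hx => (g5 x (hZΩ hx)).1
  obtain ⟨k₀, ⟨⟨⟨e1, e2⟩, e3⟩, e4⟩, e5⟩ := (((((eventually_ge_atTop k₁).and
    (eventually_ge_atTop k)).and (ev_pow 1 hη₀)).and (ev_pow 3 hr)).and (eventually_all.2 fun j =>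
      (ev_pow (100 * (T j).b) hr).and (ev_pow (100 * (T j).b) hμ))).exists
  have hη : (0:ℝ) < 2⁻¹ ^ k₀ := by positivity
  have hη' : ∀ j, 0 ≤ ((T j).b : ℝ) * 2⁻¹ ^ k₀ := fun j => by positivity
  have hU : ∀ j, thickening (20 * (T j).b * 2⁻¹ ^ k₀) (cthickening r (K j)) ⊆
      thickening (2 * r₂) (K j) := fun j => (thickening_subset_cthickening _ _).trans
    (cth_cth (by linarith [hη' j]) hr.le (by linarith [hη' j, (e5 j).1]))
  obtain ⟨d, hd, hN⟩ := hN k₀ e1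
  obtain ⟨e₁, he₁, hinv⟩ := inv_unif hΛ hf cZ hZΩ hd
  obtain ⟨m₁, hm₁, hmin⟩ := tg_min g1 hf cZ hZΩ
  have hsep : ∀ᶠ β in 𝓝[>] (0:ℝ), ∀ j j', j ≠ j' → ∀ x ∈ K j, ∀ y ∈ K j',
      12 * β ≤ dist (f x) (f y) :=
    eventually_all.2 fun j => eventually_all.2 fun j' => eventually_all.2 fun h => by
      obtain ⟨t, ht, H⟩ := sep_img hf (k1 j).1 (k1 j').1 ((z5 j).trans hZΩ) ((z5 j').trans hZΩ)
        (disjoint_left.2 fun x hx hx' => by linarith [k2 j j' h x hx x hx', dist_self x])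
      exact (ev_mul_le 12 ht).mono fun β hβ x hx y hy => hβ.trans (H x hx y hy)
  obtain ⟨β', ⟨⟨f1, f2⟩, f3⟩, hβ'⟩ := ((((ev_mul_le 20 he₁).and (ev_mul_le 201 hm₁)).and hsep).and
    self_mem_nhdsWithin).exists
  replace hβ' : 0 < β' := hβ'
  obtain ⟨n₁, hN⟩ := hN β' hβ'
  have ok : ∀ w, (par T c.m K r ς₀ k₀ (max n₁ 1) w).Ok Ω := fun w =>
    par_ok w c.m_pos (le_max_right _ _) hr (fun j => (k1 j).1) g4 g5 r2
      (fun j x hx => ⟨hZΩ (z4 j hx), hμ' x (z4 j hx)⟩)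
      (fun j j' h x hx y hy => le_trans (by linarith) (k2 j j' h x hx y hy)) e5
  obtain ⟨Φ, hΦ, hN⟩ := hN (max n₁ 1) (le_max_left _ _) ς₀ (ok 0)
  replace hN : ∀ w, NIn p K₂ hM₀ c₀ Cz CM CR Mt Sl Λ F
      (par T c.m (fun j => (Y j).K) r ς₀ k₀ (max n₁ 1) w) Y Tg (fun j => c.Γ (T j)) oN e d β'
      (Φ w) := fun w => hN w
  have m1 : Mean 1 Φ (E + (∑ j, (c.Γ (T j) : ℝ≥0∞)) * δ₂) := hΦ.mono (add_le_add
    ((mul_comm _ _).trans_le b0) ((Finset.sum_le_sum fun j _ => mul_le_mul_right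
      ((lintegral_mono_set (sdiff_subset_sdiff_left (hU j))).trans (t2 j ((z3 j).trans hZΩ)))
      _).trans_eq (Finset.sum_mul _ _ _).symm))
  have m2 : Mean 1 (LAM S₀ ς k₀ k O nn (Ω \ ⋃ j, K j) (K₃ᶜ.indicator fun x => ‖F x‖ₑ ^ p))
      (4000000 * M₀ * δ₁) := (mean_LAM le_rfl hS₀.1 hS₀.2 (hΩ.measurableSet.diff cK.measurableSet)
    (mF.indicator k4.measurableSet.compl) v1.continuous k₀ k nn (fun i => (hO i).1.measurableSet)
    hdj).mono (mul_le_mul_right (le_trans (by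
      rw [setLIntegral_indicator k4.measurableSet.compl]
      exact lintegral_mono_set fun x hx => ⟨hx.2.1, fun h => h.elim hx.1 hx.2.2⟩) k9) _)
  have m3 : Mean 1 (LAM S₀ ς k₀ k O nn (thickening (2 * r₂) (⋃ j, K j) \ ⋃ j, K j)
      fun x => ‖F x‖ₑ ^ p) (4000000 * M₀ * δ₂) := (mean_LAM le_rfl hS₀.1 hS₀.2
    (isOpen_thickening.measurableSet.diff cK.measurableSet) mF v1.continuous k₀ k nn
    (fun i => (hO i).1.measurableSet) hdj).mono (mul_le_mul_right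
      ((lintegral_mono fun x => le_add_self).trans
        (t1 ((thickening_subset_cthickening _ _).trans (z2.trans hZΩ)))) _)
  obtain ⟨w, hw1, hw2⟩ := mark.2.2.2 hΩ hf.cont hli hw one_pos (m1.add (((((m2.add
    (m3.const_mul ((1 + ∑ j, (c.Γ (T j) : ℝ≥0∞)) * (1 + ∑ j, (Ct M₀ (c.θ (T j).b) (c.N (T j).b)
      (c.t (T j).b) (c.L (T j).b) : ℝ≥0∞))))).add ((hΦ₃.add (Mean.const
      (ENNReal.ofReal θ * volume Ω))).const_mul (ENNReal.ofReal (b + 1) ^ p))).add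
    (Mean.const (ENNReal.ofReal τ * volume Ω))).add (Mean.const δ₁)).const_mul (Cf M₀ (Cu M₀))))
  obtain ⟨P₁, P₂, A, hS, hP₂⟩ := hS w
  have hy : Hy Λ Z K₃ (thickening r₂ K₃) (thickening (2 * r₂) (⋃ j, K j) \ ⋃ j, K j) f f' F
      (par T c.m K r ς₀ k₀ (max n₁ 1) w) Y b τ₀ D τ (N * 2⁻¹ ^ k) θ (κ b θ) (ε / 4) s₁ oN d β' k n₀
      ς δ o O σ₀ nn :=
    { std := ⟨hΩ, hΛ, cΩ, cΛ.2, bΛ, hf, genbv hΩ hf.cont hli hw⟩
      meas := hF
      ok := ok w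
      good := hw2
      K_meas := k4.measurableSet
      K_V := z8
      K_b := fun x hx => (k7 x hx).1
      V_sub := z7
      Ω₀_sub := hZΩ
      V_G := fun j => (disj_cth k4 (k1 j).1 hr₂.le (by linarith) (k6 j)).mono
        (thickening_subset_cthickening _ _) (thickening_subset_cthickening _ _)
      K_sub := fun j => self_subset_cthickening _
      near := fun j => subset_inter
        (cth_cth (a := 100 * (T j).b * 2⁻¹ ^ k₀) (by linarith [hη' j]) hr.le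
          (by linarith [(e5 j).1]))
        (cth_cth (a := 100 * (T j).b * 2⁻¹ ^ k₀) (by linarith [hη' j]) hr.le
          (by linarith [(e5 j).1]))
      L_ge := fun j => c.le_L _
      X_ge := sdiff_subset_sdiff_left (inter_subset_right.trans (iUnion_subset fun j =>
        (cthickening_subset_of_subset _ (thickening_subset_cthickening _ _)).trans
          ((cth_cth (a := 3 * 2⁻¹ ^ k₀) (by linarith) hr₂.le (by linarith)).trans
            (thickening_subset_of_subset _ (subset_iUnion K j)))))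
      τ_mem := ⟨hτ.le, by linarith⟩
      k_le := ⟨e2, hn₀⟩
      s_ge := ⟨by gcongr, by rw [← mul_assoc]; gcongr,
        by rw [← mul_assoc]; exact le_mul_of_one_le_left hρ.le N3⟩
      ρ_le := ⟨a3, a4⟩
      far := fun j x hx y hy =>
        a5.trans (hfar x (mem_iUnion.2 ⟨j, hx⟩) y (thickening_subset_cthickening _ _ hy))
      tg := g1
      δ_le := ⟨g2, g3⟩
      osc := g6
      shell := fun i => ⟨(hnn i).1, g7 i, (hnn i).2⟩
      O_sub := fun i => (hO i).2.1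
      O_lf := hlf
      O_disj := hdj
      lip := v1
      pos := v2
      le_ς := ⟨v3, v4⟩
      min_le := v5 _ ((one_mul _).ge.trans e3)
      β_pos := hβ'
      β_le := fun j x hx => f2.trans (hmin x (z5 j hx))
      sep := f3
      inv := fun j x hx y hy h => hinv x (z3 j (hU j hx)) y hy (h.trans f1) }
  obtain ⟨h, h2, h3⟩ := hX hy (fun σ 𝓒 => hM _ σ 𝓒) hS hB
    (@hN w) (pos_iff_ne_zero.2 hE0)
  refine ⟨h.toFun, h.invFun, ⟨h.mapsTo, h.mapsTo_inv, h.left_inv, h.right_inv, h.cont, h.cont_inv⟩,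
    h.conical, fun x hx => (h2 x hx).trans_eq (by ring), ?_⟩
  rw [show ∫⁻ x in Ω, ‖fderiv ℝ h.toFun x - F₀ x‖ₑ ^ p = ∫⁻ x in Ω, ‖fderiv ℝ h.toFun x - F x‖ₑ ^ p
    from lintegral_congr_ae (hFe.mono fun x hx => by simp only [hx])]
  have hv := measure_mono (μ := volume) hVΩ
  refine h3.trans ((add_le_add (le_trans (add_le_add le_rfl (mul_le_mul_right (add_le_add
    (add_le_add (add_le_add le_rfl (mul_le_mul_right (add_le_add hP₂ (mul_le_mul_right hv _)) _))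
      (mul_le_mul_right hv _)) k9) _)) hw1) le_rfl).trans ((arith b1 b2 b3 b4 b5).trans_eq ?_))
  rw [hE, ← ENNReal.ofReal_ofNat, ← ENNReal.ofReal_mul (by norm_num)]
  congr 1
  ring

end P073.Ac
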