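import Vale.Agent.P073Y.Nr.Sk3
import Vale.Agent.P073Y.Ms.Tgt
import Vale.Agent.P073Z.ACC.Fin1

/-!
# Small lemmas for the choice of the parameters
-/

open Set Metric Topology Filter MeasureTheory
open scoped ENNReal NNReal

namespace P073.Ac

open ACC (ev_mul_le)

theorem ev_ofReal {X e : ℝ≥0∞} (hX : X ≠ ⊤) (he : e ≠ 0) :
    ∀ᶠ t in 𝓝[>] (0:ℝ), X * ENNReal.ofReal t ≤ e := by
  have h : Tendsto (fun t : ℝ => X * ENNReal.ofReal t) (𝓝 0) (𝓝 (X * ENNReal.ofReal 0)) :=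
    ENNReal.Tendsto.const_mul (ENNReal.continuous_ofReal.tendsto 0) (Or.inr hX)
  rw [ENNReal.ofReal_zero, mul_zero] at h
  exact (h.mono_left nhdsWithin_le_nhds).eventually (ge_mem_nhds (pos_iff_ne_zero.2 he))

theorem exists_small {X e : ℝ≥0∞} (hX : X ≠ ⊤) (he : e ≠ 0) : ∃ δ : ℝ≥0∞, 0 < δ ∧ X * δ ≤ e := by
  obtain ⟨t, h1, h2⟩ := ((ev_ofReal hX he).and self_mem_nhdsWithin).exists
  exact ⟨_, ENNReal.ofReal_pos.2 h2, h1⟩

theorem tend_pow : Tendsto (fun k : ℕ => (2:ℝ)⁻¹ ^ k) atTop (𝓝[>] 0) :=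
  tendsto_nhdsWithin_iff.2 ⟨tendsto_pow_atTop_nhds_zero_of_lt_one (by norm_num) (by norm_num),
    Eventually.of_forall fun k => by simp⟩

theorem ev_pow (a : ℝ) {c : ℝ} (hc : 0 < c) : ∀ᶠ k : ℕ in atTop, a * (2:ℝ)⁻¹ ^ k ≤ c :=
  tend_pow.eventually (ev_mul_le a hc)

variable {Ω Λ A B C : Set E3} {f f' : E3 → E3}

/-- the images of disjoint compact sets have a positive distance -/
theorem sep_img (hf : HomeoOn f f' Ω Λ) (hA : IsCompact A) (hB : IsCompact B) (hAΩ : A ⊆ Ω)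
    (hBΩ : B ⊆ Ω) (h : Disjoint A B) : ∃ d, 0 < d ∧ ∀ v ∈ A, ∀ x ∈ B, d ≤ dist (f v) (f x) := by
  obtain ⟨r, hr, H⟩ := exists_pos_forall_lt_edist (hA.image_of_continuousOn (hf.cont.mono hAΩ))
    (hB.image_of_continuousOn (hf.cont.mono hBΩ)).isClosed
    (disjoint_image_image fun a ha b hb e =>
      disjoint_left.1 h ha (hf.left_inv.injOn (hAΩ ha) (hBΩ hb) e ▸ hb))
  refine ⟨r, hr, fun v hv x hx => ?_⟩
  have h1 := (H _ (mem_image_of_mem f hv) _ (mem_image_of_mem f hx)).le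
  rwa [edist_nndist, ENNReal.coe_le_coe] at h1

/-- uniform continuity of the inverse at a compact set -/
theorem inv_unif (hΛ : IsOpen Λ) (hf : HomeoOn f f' Ω Λ) (hC : IsCompact C) (hCΩ : C ⊆ Ω) {d : ℝ}
    (hd : 0 < d) : ∃ e, 0 < e ∧ ∀ x ∈ C, ∀ y ∈ Ω, dist (f x) (f y) ≤ e → dist x y ≤ d := by
  have h := (hC.image_of_continuousOn (hf.cont.mono hCΩ)).uniformContinuousAt_of_continuousAt f'
    (fun a ⟨x, hx, e⟩ => hf.cont_inv.continuousAt (hΛ.mem_nhds (e ▸ hf.mapsTo (hCΩ hx))))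
    (dist_mem_uniformity hd)
  obtain ⟨e, he, H⟩ := mem_uniformity_dist.1 h
  refine ⟨e / 2, half_pos he, fun x hx y hy h1 => ?_⟩
  have h2 : dist (f' (f x)) (f' (f y)) < d := H (h1.trans_lt (half_lt_self he)) ⟨x, hx, rfl⟩
  rw [hf.left_inv (hCΩ hx), hf.left_inv hy] at h2
  exact h2.le

theorem tg_min {δ : E3 → ℝ} (hδ : M2.Tg Λ δ) (hf : HomeoOn f f' Ω Λ) (hC : IsCompact C)
    (hCΩ : C ⊆ Ω) : ∃ m, 0 < m ∧ ∀ x ∈ C, m ≤ δ (f x) :=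
  hC.exists_forall_le' ((LipschitzWith.of_le_add_mul 1 fun y y' => by
    have := hδ.lip y y'
    have := dist_nonneg (x := y) (y := y')
    push_cast
    linarith).continuous.comp_continuousOn (hf.cont.mono hCΩ))
    fun x hx => hδ.pos _ (hf.mapsTo (hCΩ hx))

/-- the steps of the candidate planes -/
theorem exists_steps {O : ℕ → Set E3} (hO : LFIn O Ω) (hC : IsCompact C) (hCΩ : C ⊆ Ω)
    {σ₀ : ℕ → ℝ} (hσ : ∀ i, 0 < σ₀ i) (k : ℕ) : ∃ (n : ℕ → ℕ) (n₀ : ℕ), k ≤ n₀ ∧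
      ∀ i, (2:ℝ)⁻¹ ^ n i ≤ σ₀ i ∧ ((O i ∩ C).Nonempty → n i = n₀) := by
  classical
  obtain ⟨n₀, h1, h2⟩ := (((eventually_all_finite (hO.finite_meet hC hCΩ)).2 fun i _ =>
    ev_pow 1 (hσ i)).and (eventually_ge_atTop k)).exists
  choose m hm using fun i => (ev_pow 1 (hσ i)).exists
  refine ⟨fun i => if (O i ∩ C).Nonempty then n₀ else m i, n₀, h2, fun i => ⟨?_, fun h => if_pos h⟩⟩
  by_cases h : (O i ∩ C).Nonempty
  · simpa only [if_pos h, one_mul] using h1 i h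
  · simpa only [if_neg h, one_mul] using hm i

theorem near_cth (hA : IsCompact A) {r : ℝ} (hr : 0 ≤ r) {x : E3} (hx : x ∈ cthickening r A) :
    ∃ y ∈ A, dist x y ≤ r := by
  rw [hA.cthickening_eq_biUnion_closedBall hr] at hx
  simpa using hx

theorem cth_cth {a r t : ℝ} (ha : 0 ≤ a) (hr : 0 ≤ r) (h : a + r < t) :
    cthickening a (cthickening r A) ⊆ thickening t A :=
  (cthickening_cthickening_subset ha hr A).trans
    (cthickening_subset_thickening' (by linarith) h A)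

/-- separated sets have disjoint thickenings -/
theorem disj_cth (hA : IsCompact A) (hB : IsCompact B) {r r₁ : ℝ} (hr : 0 ≤ r) (h : 2 * r < r₁)
    (H : ∀ x ∈ A, ∀ y ∈ B, r₁ ≤ dist x y) : Disjoint (cthickening r A) (cthickening r B) :=
  disjoint_left.2 fun x h1 h2 => by
    obtain ⟨a, ha, h3⟩ := near_cth hA hr h1
    obtain ⟨b, hb, h4⟩ := near_cth hB hr h2
    linarith [H a ha b hb, dist_triangle_left a b x]

/-- admissible parameters -/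
theorem par_ok {n : ℕ} {T : Fin n → Ty} {m : ℕ → ℕ} {K : Fin n → Set E3} {r r₁ μ : ℝ}
    {ς : E3 → ℝ} {k₀ n' : ℕ} (w : E3) (hm : ∀ b, 1 ≤ m b) (hn : 1 ≤ n') (hr : 0 < r)
    (hK : ∀ j, IsCompact (K j)) (hl : LipschitzWith (1 / 10) ς)
    (hp : ∀ x ∈ Ω, 0 < ς x ∧ closedBall x (ς x) ⊆ Ω) (h1 : 6 * r ≤ r₁)
    (h2 : ∀ j, ∀ x ∈ thickening r₁ (K j), x ∈ Ω ∧ μ ≤ ς x)
    (h3 : ∀ j j', j ≠ j' → ∀ x ∈ K j, ∀ y ∈ K j', r₁ ≤ dist x y)
    (h4 : ∀ j, 100 * ((T j).b : ℝ) * 2⁻¹ ^ k₀ ≤ r ∧ 100 * ((T j).b : ℝ) * 2⁻¹ ^ k₀ ≤ μ) :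
    (Nr.par T m K r ς k₀ n' w).Ok Ω := by
  have h0 : ∀ j, 0 ≤ ((T j).b : ℝ) * 2⁻¹ ^ k₀ := fun j => by positivity
  refine ⟨fun j => hm _, hn, fun j => (hK j).cthickening, hl, hp, fun j x hx => ?_,
    fun j j' hj x hx y hy => ?_⟩
  · have h5 := h2 j x (cth_cth (a := 100 * ((T j).b : ℝ) * 2⁻¹ ^ k₀) (by linarith [h0 j]) hr.le
      (by linarith [(h4 j).1]) hx)
    refine ⟨h5.1, le_trans ?_ h5.2⟩
    change 10 * ((T j).b : ℝ) * 2⁻¹ ^ k₀ ≤ μ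
    linarith [h0 j, (h4 j).2]
  · obtain ⟨a, ha, h5⟩ := near_cth (hK j) hr.le hx
    obtain ⟨b, hb, h6⟩ := near_cth (hK j') hr.le hy
    change 200 * (((T j).b : ℝ) + (T j').b) * 2⁻¹ ^ k₀ ≤ dist x y
    linarith [h3 j j' hj a ha b hb, dist_triangle4 a x y b, dist_comm a x, (h4 j).1, (h4 j').1]

end P073.Ac
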