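import Vale.Agent.P073Y.Ac.Main
import Vale.Agent.P073Y.Gc.Fix2Sk
import Vale.Agent.P073Y.Ms.Mod

/-!
# The choice of the parameters for a modified map
-/

open Set Metric Topology Filter MeasureTheory
open scoped ENNReal NNReal

namespace P073.Ac

open ACC (ev_mul_le ev_small)
open M2 Zn Gc Nr P2
open _root_.P073.Top

theorem pla0_two {p : ℝ} (h1 : 1 ≤ p) (hH : THR) (hX : FIX2 p) (hP : P2.PRE p) (hB : BATCH2 p)
    (hN : NEAR2L p) (hM : MESH2) : An.PLA0 p := by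
  intro Ω Λ f f' F₀ ε hΩ hΛ cΩ cΛ bΩ bΛ hε hf hF₀ hi₀ hw₀
  obtain ⟨F, hF, -, hFe, hFi, hi, hw⟩ := ACC.exists_borel hΩ bΩ h1 hF₀ hi₀ hw₀
  have hiΩ : ∫⁻ x in Ω, ‖F x‖ₑ ^ p < ⊤ := (setLIntegral_le_lintegral _ _).trans_lt hi
  have hli : LocallyIntegrableOn F Ω volume := hFi.locallyIntegrable.locallyIntegrableOn Ω
  have hV : volume Ω ≠ ⊤ := bΩ.measure_lt_top.ne
  have mF : Measurable fun x => ‖F x‖ₑ ^ p := hF.enorm.pow_const p
  have hu : ∫⁻ x in Ω, (1 + ‖F x‖ₑ ^ p) ≠ ⊤ := by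
    rw [lintegral_add_left measurable_const, setLIntegral_const, one_mul]
    exact ENNReal.add_ne_top.2 ⟨hV, hiΩ.ne⟩
  obtain ⟨E, hE⟩ : ∃ E, E = ENNReal.ofReal (ε / 10) := ⟨_, rfl⟩
  have hE0 : E ≠ 0 := by rw [hE]; exact (ENNReal.ofReal_pos.2 (by positivity)).ne'
  obtain ⟨M₀, Mt, S₀, Sl, hM₀, hS₀, hSl, hM⟩ := hM
  obtain ⟨K₂, CR, Cf, hX⟩ := hX
  obtain ⟨C, -, hP⟩ := hP
  obtain ⟨c₀, Cz, CM, Cu, Ct, κ, hc₀, hκ, hB⟩ := hB
  obtain ⟨ε₁, hε₁, b0⟩ := exists_small (X := volume Ω + 1) (by finiteness) hE0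
  obtain ⟨c, hN⟩ := hN K₂ M₀ STR.kap c₀ Cz CM CR Mt Sl ε₁ hM₀ STR.kap_pos hc₀ hε₁ hSl
  obtain ⟨δ₁, hδ₁, b1⟩ := exists_small (X := Cf M₀ (Cu M₀) C * (4000000 * M₀ + 1))
    (by finiteness) hE0
  obtain ⟨n, T, K, K₃, b, r₁, hr₁, k1, k2, k3, k4, k5, k6, hb, k7, k8, k10, k9⟩ :=
    ksel2 c.τ hΩ bΩ hf.cont hw h1 hF.aestronglyMeasurable hiΩ hδ₁ c.τ_pos
  have hb' : (1:ℝ) ≤ b := by exact_mod_cast hb
  obtain ⟨τ₀, D, hτ₀, τ2, hD, hX⟩ := hX hM₀ b hb'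
  have hΓ : ∑ j, (c.Γ (T j) : ℝ≥0∞) ≠ ⊤ := ENNReal.sum_ne_top.2 fun _ _ => ENNReal.coe_ne_top
  have hCt : ∑ j, (Ct M₀ (c.θ (T j).b) (c.N (T j).b) (c.t (T j).b) (c.L (T j).b) : ℝ≥0∞) ≠ ⊤ :=
    ENNReal.sum_ne_top.2 fun _ _ => ENNReal.coe_ne_top
  obtain ⟨δ₂, hδ₂, b2⟩ := exists_small (X := ∑ j, (c.Γ (T j) : ℝ≥0∞) + Cf M₀ (Cu M₀) C *
    ((1 + ∑ j, (c.Γ (T j) : ℝ≥0∞)) * (1 + ∑ j, (Ct M₀ (c.θ (T j).b) (c.N (T j).b) (c.t (T j).b)
      (c.L (T j).b) : ℝ≥0∞)) * (4000000 * M₀))) (by finiteness) hE0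
  have cK : IsCompact (⋃ j, K j) := isCompact_iUnion fun j => (k1 j).1
  have cA : IsCompact (K₃ ∪ ⋃ j, K j) := k4.union cK
  obtain ⟨r₂, ⟨⟨t1, t2⟩, t3⟩, hr₂⟩ := ((((ev_small cK.isClosed hu two_pos hδ₂.ne').and
    (eventually_all.2 fun j => ev_small (k1 j).1.isClosed hu two_pos hδ₂.ne')).and
    (ev_mul_le 10 hr₁)).and self_mem_nhdsWithin).exists
  replace hr₂ : 0 < r₂ := hr₂
  obtain ⟨Z, hZ⟩ : ∃ Z, Z = cthickening (2 * r₂) (K₃ ∪ ⋃ j, K j) := ⟨_, rfl⟩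
  have cZ : IsCompact Z := hZ ▸ cA.cthickening
  have hZΩ : Z ⊆ Ω := fun x hx => by
    obtain ⟨y, hy, h⟩ := near_cth cA (by linarith) (hZ ▸ hx)
    rcases hy with hy | hy
    · exact k5 (mem_cthickening_of_dist_le x y _ _ hy (by linarith))
    · obtain ⟨j, hj⟩ := mem_iUnion.1 hy
      exact (k1 j).2.1 (mem_cthickening_of_dist_le x y _ _ hj (by linarith))
  have z1 : cthickening (2 * r₂) K₃ ⊆ Z := hZ ▸ cthickening_subset_of_subset _ subset_union_left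
  have z2 : cthickening (2 * r₂) (⋃ j, K j) ⊆ Z :=
    hZ ▸ cthickening_subset_of_subset _ subset_union_right
  have z3 : ∀ j, thickening (2 * r₂) (K j) ⊆ Z := fun j => (thickening_subset_cthickening _ _).trans
    ((cthickening_subset_of_subset _ (subset_iUnion K j)).trans z2)
  have z4 : ∀ j, thickening r₂ (K j) ⊆ Z := fun j => (thickening_mono (by linarith) _).trans (z3 j)
  have z5 : ∀ j, K j ⊆ Z := fun j => (self_subset_thickening hr₂ _).trans (z4 j)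
  have z6 : cthickening r₂ K₃ ⊆ Z := (cthickening_mono (by linarith) _).trans z1
  have z7 : thickening r₂ K₃ ⊆ Z := (thickening_subset_cthickening _ _).trans z6
  have z8 : K₃ ⊆ thickening r₂ K₃ := self_subset_thickening hr₂ _
  let Y : Fin n → TyZ Ω f := fun j =>
    tyz c (T j) (K j) r₂ (k3 j).1 (k1 j).1 hr₂ ((z4 j).trans hZΩ) (k3 j).2
  obtain ⟨l, v, Tg, B, s₁, s₀, hs₁, hs₀, hT, hB⟩ := hB (ε := ε / 13) Y hΩ hΛ bΛ hf (by positivity)
    cZ hZΩ z5 fun j j' h => (disj_cth (k1 j).1 (k1 j').1 hr₂.le (by linarith) (k2 j j' h)).mono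
      (thickening_subset_cthickening _ _) (thickening_subset_cthickening _ _)
  obtain ⟨oN, hoN, hN⟩ := hN (Λ := Λ) T Y l Tg r₁ hΩ hf.cont hF hli hw hr₁ fun j =>
    ⟨(k3 j).1, rfl, rfl, rfl, rfl, rfl, (k1 j).2.1, (k1 j).2.2, (hT j).1, ⟨_, (hT j).2.1⟩,
      (hT j).2.2⟩
  obtain ⟨r, hr, r1, r2⟩ : ∃ r : ℝ, 0 < r ∧ 6 * r ≤ s₁ ∧ 6 * r ≤ r₂ :=
    ⟨min s₁ r₂ / 6, by positivity, by linarith [min_le_left s₁ r₂], by linarith [min_le_right s₁ r₂]⟩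
  obtain ⟨e, he, k₁, hN⟩ := hN r hr
  have hbp : ENNReal.ofReal (b + 1) ^ p ≠ ⊤ :=
    ENNReal.rpow_ne_top_of_nonneg (by linarith) ENNReal.ofReal_ne_top
  obtain ⟨θ, ⟨b4, θ1⟩, hθ⟩ := (((ev_ofReal (X := Cf M₀ (Cu M₀) C * ENNReal.ofReal (b + 1) ^ p *
    volume Ω) (by finiteness) hE0).and (ev_mul_le 1 one_pos)).and self_mem_nhdsWithin).exists
  replace hθ : 0 < θ := hθ
  obtain ⟨τ, ⟨b5, τ1⟩, hτ⟩ := (((ev_ofReal (X := Cf M₀ (Cu M₀) C * volume Ω) (by finiteness) hE0).and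
    (ev_mul_le 1 hτ₀)).and self_mem_nhdsWithin).exists
  replace hτ : 0 < τ := hτ
  obtain ⟨δ₃, hδ₃, b3⟩ := exists_small (X := Cf M₀ (Cu M₀) C * ENNReal.ofReal (b + 1) ^ p + 1)
    (by finiteness) hE0
  rw [add_mul, one_mul] at b3
  have hκ' := hκ b θ hb' hθ
  obtain ⟨N, N1, N2, N3⟩ : ∃ N : ℝ, D ≤ N ∧ D ≤ κ b θ * N ∧ 1 ≤ θ * N := by
    have a0 : 0 < D := by linarith
    have a1 : 0 < D / κ b θ := by positivity
    have a2 : 0 < 1 / θ := by positivity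
    refine ⟨D + D / κ b θ + 1 / θ, by linarith, (div_le_iff₀' hκ').1 (by linarith),
      (div_le_iff₀' hθ).1 (by linarith)⟩
  have hVΩ := z7.trans hZΩ
  have z9 : ∀ j, Disjoint (cthickening r₂ K₃) (cthickening r₂ (K j)) := fun j =>
    disj_cth k4 (k1 j).1 hr₂.le (by linarith) (k6 j)
  obtain ⟨d₀, hd₀, hfar⟩ := sep_img hf (isCompact_iUnion fun j => (k1 j).1.cthickening (r := r₂))
    (k4.cthickening (r := r₂)) (iUnion_subset fun j => ((cthickening_subset_thickening' (by linarith)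
      (by linarith) _).trans (z3 j)).trans hZΩ) (z6.trans hZΩ)
    (disjoint_iUnion_left.2 fun j => (z9 j).symm)
  obtain ⟨dS, X, hdS, cX, hXΩ, hsup⟩ := exists_supp hΛ hf k4 (z8.trans hVΩ)
  obtain ⟨d₁, ⟨⟨⟨⟨d1, d2⟩, d3⟩, d4⟩, hd₁⟩⟩ := (((((ev_mul_le 13 hε).and (ev_mul_le 1 hs₀)).and
    (ev_mul_le 1 hdS)).and (ev_mul_le 4 hd₀)).and self_mem_nhdsWithin).exists
  replace hd₁ : 0 < d₁ := hd₁
  obtain ⟨u₀, hu₀, hunif⟩ := Metric.uniformContinuousOn_iff_le.1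
    (cZ.uniformContinuousOn_of_continuous (hf.cont.mono hZΩ)) (ε / 13) (by positivity)
  obtain ⟨k₂, hS⟩ := hP hΩ hΛ cΩ bΩ bΛ hf hF hli hw ((lintegral_mono_set hVΩ).trans_lt hiΩ) k4
    isOpen_thickening z8 hVΩ ((measure_mono hVΩ).trans_lt hV.lt_top) hb' k7
    (k8.mono subset_union_left) (fun t ht => (k10 t ht).imp fun _ h =>
      ⟨h.1, fun x hx => h.2 x (Or.inl hx)⟩) N τ d₁ δ₃ (by linarith) hτ hd₁ hδ₃
  obtain ⟨k, ⟨⟨⟨⟨⟨a1, a2⟩, a3⟩, a4⟩, a5⟩, a6⟩, a7⟩ := (((((((eventually_ge_atTop k₂).and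
    (ev_pow N hs₀)).and (ev_pow D (show 0 < ε / 13 by positivity))).and (ev_pow D hoN)).and
    (ev_pow D (half_pos hd₀))).and (ev_pow 22 hr₂)).and (ev_pow 1 hu₀)).exists
  have hρ : (0:ℝ) < 2⁻¹ ^ k := by positivity
  obtain ⟨Φ₃, hΦ₃, hS⟩ := hS k a1
  obtain ⟨o, O, σ₀, ho, hO, hlf, hdj, hB⟩ := hB (N * 2⁻¹ ^ k) b θ e
    (mul_pos (by linarith) hρ) a2 hb' hθ (by linarith) he
  obtain ⟨nn, n₀, hn₀, hnn⟩ := exists_steps hlf k4 (z8.trans hVΩ) (fun i => (hO i).2.2) k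
  obtain ⟨δ, ς₀, g1, g2, g3, g4, g5, g6, g7⟩ := exists_gauges hΩ hΛ hf ho hρ hlf
    (a := fun i => 2 * 2⁻¹ ^ nn i) fun i => by positivity
  obtain ⟨ς, η₀, hη₀, v1, v2, v3, v4, v5⟩ := exists_vs g4 g5 (V := thickening r₂ K₃) cZ hZΩ
    (ρ := 2⁻¹ ^ k) fun x hx => ((closedBall_subset_closedBall a6).trans
      (closedBall_subset_cthickening (thickening_subset_cthickening _ _ hx) r₂)).trans
      ((cthickening_cthickening_subset hr₂.le hr₂.le _).trans (two_mul r₂ ▸ z1))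
  obtain ⟨μ, hμ, hμ'⟩ := cZ.exists_forall_le' g4.continuous.continuousOn
    fun x hx => (g5 x (hZΩ hx)).1
  obtain ⟨l₀, hl₀⟩ := eventually_atTop.1 ((((((eventually_ge_atTop k₁).and
    (eventually_ge_atTop k)).and (ev_pow 1 hη₀)).and (ev_pow 3 hr)).and (ev_pow 2 one_pos)).and
    (eventually_all.2 fun j => ((ev_pow (100 * (T j).b) hr).and (ev_pow (100 * (T j).b) hμ)).and
      (ev_pow (100 * (T j).b) one_pos)))
  have hη' : ∀ m j, 0 ≤ ((T j).b : ℝ) * 2⁻¹ ^ (m + l₀) := fun m j => by positivity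
  have e0 : ∀ (m : ℕ) (a : ℝ), a * 2⁻¹ ^ l₀ ≤ 1 → a * 2⁻¹ ^ (m + l₀) ≤ 2⁻¹ ^ m := fun m a h => by
    rw [pow_add, mul_left_comm]
    exact mul_le_of_le_one_right (by positivity) h
  have e5 := fun m j => ((hl₀ (m + l₀) le_add_self).2 j).1
  have hU : ∀ m j, thickening (20 * (T j).b * 2⁻¹ ^ (m + l₀)) (cthickening r (K j)) ⊆
      thickening (2 * r₂) (K j) := fun m j => (thickening_subset_cthickening _ _).trans
    (cth_cth (by linarith [hη' m j]) hr.le (by linarith [hη' m j, (e5 m j).1]))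
  have hsep : ∀ᶠ β in 𝓝[>] (0:ℝ), ∀ j j', j ≠ j' → ∀ x ∈ K j, ∀ y ∈ K j',
      12 * β ≤ dist (f x) (f y) :=
    eventually_all.2 fun j => eventually_all.2 fun j' => eventually_all.2 fun h => by
      obtain ⟨t, ht, H⟩ := sep_img hf (k1 j).1 (k1 j').1 ((z5 j).trans hZΩ) ((z5 j').trans hZΩ)
        (disjoint_left.2 fun x hx hx' => by linarith [k2 j j' h x hx x hx', dist_self x])
      exact (ev_mul_le 12 ht).mono fun β hβ x hx y hy => hβ.trans (H x hx y hy)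
  have key : ∀ m : ℕ, ∃ (d β' : ℝ) (n' : ℕ) (Φ : E3 → ℝ≥0∞), 0 < β' ∧ β' ≤ 2⁻¹ ^ m ∧
      (∀ j j', j ≠ j' → ∀ x ∈ K j, ∀ y ∈ K j', 12 * β' ≤ dist (f x) (f y)) ∧
      (∀ x ∈ Z, ∀ y ∈ Ω, dist (f x) (f y) ≤ 20 * β' → dist x y ≤ d) ∧
      (∀ w, (par T c.m K r (fun x => min (ς₀ x) (2⁻¹ ^ m)) (m + l₀) n' w).Ok Ω) ∧
      Mean 1 Φ (E + (∑ j, (c.Γ (T j) : ℝ≥0∞)) * δ₂) ∧
      ∀ w, NIn2 p K₂ hM₀ c₀ Cz CM CR Mt Sl Λ F (par T c.m (fun j => (Y j).K) r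
        (fun x => min (ς₀ x) (2⁻¹ ^ m)) (m + l₀) n' w) Y Tg (fun j => c.Γ (T j)) oN e d β'
        (Φ w) := fun m => by
    have h0 : (0:ℝ) < 2⁻¹ ^ m := by positivity
    obtain ⟨d, hd, hN⟩ := hN (m + l₀) (hl₀ _ le_add_self).1.1.1.1.1
    obtain ⟨e₁, he₁, hinv⟩ := inv_unif hΛ hf cZ hZΩ hd
    obtain ⟨β', ⟨⟨f1, f2⟩, f3⟩, hβ'⟩ := ((((ev_mul_le 20 he₁).and (ev_mul_le 1 h0)).and hsep).and
      self_mem_nhdsWithin).exists
    obtain ⟨n₁, hN⟩ := hN β' hβ'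
    have ok : ∀ w, (par T c.m K r (fun x => min (ς₀ x) (2⁻¹ ^ m)) (m + l₀) (max n₁ 1) w).Ok Ω :=
      fun w => par_ok (μ := min μ (2⁻¹ ^ m)) w c.m_pos (le_max_right _ _) hr (fun j => (k1 j).1)
        (g4.min_const _) (fun x hx => ⟨lt_min (g5 x hx).1 h0,
          (closedBall_subset_closedBall (min_le_left _ _)).trans (g5 x hx).2⟩) r2
        (fun j x hx => ⟨hZΩ (z4 j hx), min_le_min_right _ (hμ' x (z4 j hx))⟩)
        (fun j j' h x hx y hy => le_trans (by linarith) (k2 j j' h x hx y hy)) fun j =>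
          ⟨(e5 m j).1, le_min (e5 m j).2 (e0 m _ ((hl₀ l₀ le_rfl).2 j).2)⟩
    obtain ⟨Φ, hΦ, hN⟩ := hN (max n₁ 1) (le_max_left _ _) _ (ok 0)
    exact ⟨d, β', _, Φ, hβ', (one_mul _).ge.trans f2, f3,
      fun x hx y hy h => hinv x hx y hy (h.trans f1), ok, hΦ.mono (add_le_add
        ((mul_comm _ _).trans_le b0) ((Finset.sum_le_sum fun j _ => mul_le_mul_right
          ((lintegral_mono_set (sdiff_subset_sdiff_left (hU m j))).trans
            (t2 j ((z3 j).trans hZΩ))) _).trans_eq (Finset.sum_mul _ _ _).symm)), fun w => hN w⟩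
  choose d β' n' Φ hβ' f2 f3 hinv ok m1 hN using key
  have m2 : ∀ m, Mean 1 (LAM S₀ ς (m + l₀) k O (fun i => max (nn i) m) (Ω \ ⋃ j, K j)
      (K₃ᶜ.indicator fun x => ‖F x‖ₑ ^ p)) (4000000 * M₀ * δ₁) := fun m =>
    (mean_LAM le_rfl hS₀.1 hS₀.2 (hΩ.measurableSet.diff cK.measurableSet)
      (mF.indicator k4.measurableSet.compl) v1.continuous _ k _
      (fun i => (hO i).1.measurableSet) hdj).mono (mul_le_mul_right (le_trans (by
        rw [setLIntegral_indicator k4.measurableSet.compl]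
        exact lintegral_mono_set fun x hx => ⟨hx.2.1, fun h => h.elim hx.1 hx.2.2⟩) k9) _)
  have m3 : ∀ m, Mean 1 (LAM S₀ ς (m + l₀) k O (fun i => max (nn i) m)
      (thickening (2 * r₂) (⋃ j, K j) \ ⋃ j, K j) fun x => ‖F x‖ₑ ^ p) (4000000 * M₀ * δ₂) :=
    fun m => (mean_LAM le_rfl hS₀.1 hS₀.2 (isOpen_thickening.measurableSet.diff cK.measurableSet)
      mF v1.continuous _ k _ (fun i => (hO i).1.measurableSet) hdj).mono (mul_le_mul_right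
        ((lintegral_mono fun x => le_add_self).trans
          (t1 ((thickening_subset_cthickening _ _).trans (z2.trans hZΩ)))) _)
  obtain ⟨w, hw0, hw1, hw2⟩ := mark_seq hΩ hf.cont hli hw one_pos (hΦ₃.mono (le_add_self.trans b3))
    (fun m => ((m1 m).add ((((((m2 m).add ((m3 m).const_mul ((1 + ∑ j, (c.Γ (T j) : ℝ≥0∞)) *
      (1 + ∑ j, (Ct M₀ (c.θ (T j).b) (c.N (T j).b) (c.t (T j).b) (c.L (T j).b) : ℝ≥0∞))))).add
      ((hΦ₃.add (Mean.const (ENNReal.ofReal θ * volume Ω))).const_mul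
        (ENNReal.ofReal (b + 1) ^ p))).add (Mean.const (ENNReal.ofReal τ * volume Ω))).add
      (Mean.const δ₁)).const_mul (Cf M₀ (Cu M₀) C))).mono
        (le_self_add.trans (arith b1 b2 (le_self_add.trans b3) b4 b5))) (pos_iff_ne_zero.2 hE0)
  obtain ⟨P₁, P₂, A, 𝓣, f₁, f₁', hS, hP₂⟩ := hS w (hw0.trans_lt (by rw [hE]; finiteness))
  have hG : ∀ j, Disjoint (thickening r₂ K₃) (Y j).G := fun j => (z9 j).mono
    (thickening_subset_cthickening _ _) (thickening_subset_cthickening _ _)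
  have s2 : D * 2⁻¹ ^ k ≤ κ b θ * (N * 2⁻¹ ^ k) := by rw [← mul_assoc]; gcongr
  have hB' : BMid p c₀ Cz CM Cu Ct (κ b θ) Λ Z (ε / 13) Y Tg B s₁ s₀ (N * 2⁻¹ ^ k) b θ e o O σ₀ :=
    hB
  obtain ⟨c₁, hc₁, hB⟩ := hH hB' hS z8 z7 hZΩ hG hb' (mul_pos (by linarith) hρ).le (by linarith)
    (le_trans (mul_le_mul hD (mul_le_of_le_one_left hρ.le (by linarith)) (by positivity)
      (by linarith)) s2)
  obtain ⟨δ', a, ha, T', t4, t5, t6⟩ := gauge_mod hΩ bΛ hf hS.hom cX hXΩ (fun x hx h =>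
    (hS.mdf x hx).resolve_right fun ⟨⟨u, h2, h3⟩, _⟩ => h (hsup x hx u h2 (by linarith))) g1 ho g3
    g6 hc₁
  obtain ⟨m₁, hm₁, hmin⟩ := tg_min T' hf cZ hZΩ
  obtain ⟨m₀, hm₀⟩ := eventually_atTop.1 (((ev_pow 1 ha).and (ev_pow 1 hc₁)).and (ev_pow 201 hm₁))
  obtain ⟨m, hm, hw1⟩ := hw1 m₀
  obtain ⟨⟨q1, q2⟩, q3⟩ := hm₀ m hm
  obtain ⟨⟨⟨⟨⟨-, e2⟩, e3⟩, e4⟩, -⟩, -⟩ := hl₀ (m + l₀) le_add_self
  have hη : (0:ℝ) < 2⁻¹ ^ (m + l₀) := by positivity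
  have an : ∀ i j : ℕ, i ≤ j → (2:ℝ)⁻¹ ^ j ≤ 2⁻¹ ^ i := fun i j =>
    pow_le_pow_of_le_one (by norm_num) (by norm_num)
  have hy : Hy2 Λ K₃ (thickening r₂ K₃) (thickening (2 * r₂) (⋃ j, K j) \ ⋃ j, K j) f f' f₁ F
      (par T c.m K r (fun x => min (ς₀ x) (2⁻¹ ^ m)) (m + l₀) (n' m) w) Y b τ₀ D τ (N * 2⁻¹ ^ k) θ
      (κ b θ) (ε / 13) s₁ oN (d m) (β' m) d₁ c₁ k (max n₀ m) ς δ' o O σ₀ fun i => max (nn i) m :=
    { std := ⟨hΩ, hΛ, cΩ, cΛ.2, bΛ, hf, genbv hΩ hf.cont hli hw⟩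
      meas := hF
      ok := ok m w
      good := hw2
      K_meas := k4.measurableSet
      K_V := z8
      K_b := fun x hx => (k7 x hx).1
      V_sub := hVΩ
      V_G := hG
      K_sub := fun j => self_subset_cthickening _
      near := fun j => subset_inter
        (cth_cth (a := 100 * (T j).b * 2⁻¹ ^ (m + l₀)) (by linarith [hη' m j]) hr.le
          (by linarith [(e5 m j).1]))
        (cth_cth (a := 100 * (T j).b * 2⁻¹ ^ (m + l₀)) (by linarith [hη' m j]) hr.le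
          (by linarith [(e5 m j).1]))
      L_ge := fun j => c.le_L _
      X_ge := sdiff_subset_sdiff_left (inter_subset_right.trans (iUnion_subset fun j =>
        (cthickening_subset_of_subset _ (thickening_subset_cthickening _ _)).trans
          ((cth_cth (a := 3 * 2⁻¹ ^ (m + l₀)) (by linarith) hr₂.le (by linarith)).trans
            (thickening_subset_of_subset _ (subset_iUnion K j)))))
      τ_mem := ⟨hτ.le, by linarith⟩
      k_le := ⟨e2, hn₀.trans (le_max_left _ _)⟩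
      s_ge := ⟨by gcongr, s2, by rw [← mul_assoc]; exact le_mul_of_one_le_left hρ.le N3⟩
      ρ_le := ⟨a3, a4⟩
      d_mem := ⟨hd₁.le, by linarith⟩
      gap := fun j x hx y hy => le_trans (by linarith) (hfar x (mem_iUnion.2
        ⟨j, thickening_subset_cthickening _ _ hx⟩) y (thickening_subset_cthickening _ _ hy))
      oscV := fun x hx y hy h => hunif x (z7 hx) y (z7 hy) (by linarith)
      tg := T'
      δ_le := ⟨fun z => (t4 z).trans (g2 z), t5⟩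
      osc := fun x hx y hy h => t6 x hx y hy (h.trans (mul_le_mul_of_nonneg_left
        (min_le_min_left _ (by linarith)) zero_le_two))
      shell := fun i => ⟨le_min ((an _ _ (le_max_left _ _)).trans (hnn i).1)
        ((an _ _ (le_max_right _ _)).trans (by linarith)), fun x hx hi => by
          rcases le_total (nn i) m with h | h
          · rw [max_eq_right h]
            exact (min_le_right _ _).trans_lt (lt_two_mul_self (by positivity))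
          · rw [max_eq_left h]
            exact (min_le_left _ _).trans_lt (g7 i x hx hi),
        fun h => by rw [(hnn i).2 h]⟩
      O_sub := fun i => (hO i).2.1
      O_lf := hlf
      O_disj := hdj
      lip := v1
      pos := v2
      le_ς := ⟨fun x => (min_le_left _ _).trans (v3 x), v4⟩
      min_le := fun x hx => le_min (v5 _ ((one_mul _).ge.trans e3) x hx) ((min_le_right _ _).trans
        (le_trans (mul_le_mul_of_nonneg_right (by norm_num) hη.le)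
          (e0 m 2 (hl₀ l₀ le_rfl).1.2)))
      β_pos := hβ' m
      β_le := fun j x hx => le_trans (by linarith [f2 m]) (hmin x (z5 j hx))
      sep := f3 m
      inv := fun j x hx => hinv m x (z3 j (hU m j hx)) }
  obtain ⟨h, h2, h3⟩ := hX hy (fun σ 𝓒 => hM _ σ 𝓒) hS hB (@hN m w) (pos_iff_ne_zero.2 hE0)
  refine ⟨h.toFun, h.invFun, ⟨h.mapsTo, h.mapsTo_inv, h.left_inv, h.right_inv, h.cont, h.cont_inv⟩,
    h.conical, fun x hx => (h2 x hx).trans_eq (by ring), ?_⟩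
  rw [show ∫⁻ x in Ω, ‖fderiv ℝ h.toFun x - F₀ x‖ₑ ^ p = ∫⁻ x in Ω, ‖fderiv ℝ h.toFun x - F x‖ₑ ^ p
    from lintegral_congr_ae (hFe.mono fun x hx => by simp only [hx])]
  have hv := measure_mono (μ := volume) hVΩ
  refine h3.trans ((add_le_add (le_trans (add_le_add le_rfl (mul_le_mul_right (add_le_add
    (add_le_add (add_le_add le_rfl (mul_le_mul_right (add_le_add hP₂ (mul_le_mul_right hv _)) _))
      (mul_le_mul_right hv _)) k9) _)) (le_add_self.trans hw1)) le_rfl).trans_eq ?_)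
  rw [show E + 7 * E + E + E = 10 * E by ring, hE, ← ENNReal.ofReal_ofNat,
    ← ENNReal.ofReal_mul (by norm_num)]
  congr 1
  ring

end P073.Ac
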