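import Vale.Agent.P073Y.Ac.All
import Vale.Agent.P073Y.Ac.Two
import Vale.Agent.P073Y.Gc.Thr
import Vale.Agent.P073Y.Zn2.All
import Vale.Agent.P073Y.P2.All
import Vale.Agent.P073Z.PLAF

/-!
# The approximation theorem for exponents below three, from the fixed shift construction
-/

namespace P073.Ac

theorem pla0_2_of (hX : Gc.FIX2 2) : An.PLA0 2 :=
  pla0_two one_le_two Gc.thr hX P2.pre2 (Zn.batch2 one_le_two (by norm_num))
    (Nr.near2L one_le_two) M2.mesh2

theorem ballEvans_two_of (hX : Gc.FIX2 2) : Vale.Agent.P073Z.Fin.BallEvans 2 :=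
  An.ballEvans_of_PLA0 one_le_two (pla0_2_of hX)

theorem ballEvans_lt3_of (hX : Gc.FIX2 2) {p : ℝ} (h1 : 1 ≤ p) (h3 : p < 3) :
    Vale.Agent.P073Z.Fin.BallEvans p := by
  rcases lt_trichotomy p 2 with h | rfl | h
  · exact P073.ballEvans p h1 h
  · exact ballEvans_two_of hX
  · exact ballEvans h h3

end P073.Ac
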